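import Vale.Agent.P154.D7.K0.Main
import Vale.Agent.P154.D7.K1.Main
import Vale.Agent.P154.D7.K2.Main
import Vale.Agent.P154.D7.K3.Main
import Vale.Agent.P154.D7.K4.Main
import Vale.Agent.P154.D7.K5.Main

namespace Vale.Agent.P154.D7

open PolyR Cert

/-- Coefficients of the potentials. -/
noncomputable def cc1 : ℕ → ℝ
  | 0 => (4547 / 5000 : ℝ)
  | 1 => (10067 / 10000 : ℝ)
  | 2 => (5793 / 5000 : ℝ)
  | 3 => (13551 / 10000 : ℝ)
  | 4 => (203 / 125 : ℝ)
  | 5 => (22353 / 10000 : ℝ)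
  | 6 => (44051 / 10000 : ℝ)
  | _ => 0

/-- Coefficients of the potentials. -/
noncomputable def cc2 : ℕ → ℝ
  | 0 => (-10501 / 5000 : ℝ)
  | 1 => (-12307 / 5000 : ℝ)
  | 2 => (-28923 / 10000 : ℝ)
  | 3 => (-37317 / 10000 : ℝ)
  | 4 => (-27391 / 5000 : ℝ)
  | 5 => (-101023 / 10000 : ℝ)
  | 6 => (-388853 / 10000 : ℝ)
  | _ => 0

/-- Coefficients of the potentials. -/
noncomputable def cc4 : ℕ → ℝ
  | 0 => (23347 / 10000 : ℝ)
  | 1 => (1451 / 500 : ℝ)
  | 2 => (3317 / 1000 : ℝ)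
  | 3 => (44599 / 10000 : ℝ)
  | 4 => (19477 / 2500 : ℝ)
  | 5 => (10709 / 625 : ℝ)
  | 6 => (1143001 / 10000 : ℝ)
  | _ => 0

/-- Coefficients of the potentials. -/
noncomputable def zz : ℕ → ℝ
  | 0 => (199 / 200 : ℝ)
  | 1 => (123 / 125 : ℝ)
  | 2 => (191 / 200 : ℝ)
  | 3 => (439 / 500 : ℝ)
  | 4 => (7 / 10 : ℝ)
  | 5 => (189 / 500 : ℝ)
  | _ => 0

theorem H : ChainHyp 7 (189 / 500 : ℝ) cc1 cc2 cc4 zz (111 / 200000 : ℝ) where
  hd := by norm_num
  hl0 := by norm_num
  hl1 := by norm_num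
  hld := by norm_num
  hτ' := by norm_num
  hc01 := by simp only [cc1]; norm_num
  hc04 := by simp only [cc4]; norm_num
  hc0 := by simp only [cc1, cc2, cc4]; norm_num
  hcd1 := by simp only [cc1, show 7 - 1 = 6 from rfl]; norm_num
  hcd4 := by simp only [cc4, show 7 - 1 = 6 from rfl]; norm_num
  hcd := by simp only [cc1, cc2, cc4, show 7 - 1 = 6 from rfl]; norm_num
  hζ0 := by
    intro k hk
    have hk' : k < 6 := by omega
    interval_cases k <;> simp only [zz] <;> norm_num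
  hζ1 := by
    intro k hk
    have hk' : k < 6 := by omega
    interval_cases k <;> simp only [zz] <;> norm_num
  hstep := by
    intro k hk x y hx hy hx1 hy1
    have hk' : k < 6 := by omega
    interval_cases k
    · exact K0.step x y hx hy hx1 hy1
    · exact K1.step x y hx hy hx1 hy1
    · exact K2.step x y hx hy hx1 hy1
    · exact K3.step x y hx hy hx1 hy1
    · exact K4.step x y hx hy hx1 hy1
    · exact K5.step x y hx hy hx1 hy1
  hT := by
    intro a b
    have h := Vale.Agent.P154.quad_nonneg (α := (1390618334901 / 2500000000000000 : ℝ)) (β := (4780489833 / 1250000000000000000 : ℝ)) (γ := (2896718080474071 / 625000000000000000000 : ℝ)) (a := a) (b := b) (by norm_num) (by norm_num)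
    simp only [show 7 - 1 = 6 from rfl, cc1, cc2, cc4, Pq]
    linarith

/-- Nonreconstruction for `7` children. -/
theorem nonrecon (lam : ℝ) (h0 : 0 ≤ lam) (hdl : ((7 : ℕ) : ℝ) * lam ^ 2 ≤ 1) :
    Filter.Tendsto (reconError 3 7 lam) Filter.atTop (nhds 0) :=
  nonrecon_of_hyp H lam h0 hdl

end Vale.Agent.P154.D7
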